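import Vale.Agent.P054.BdN.N13
import Vale.Agent.P054.T3.H533.CountT
import Vale.Agent.P054.T3.H109.GLines

set_option autoImplicit false
set_option linter.all false

/-!
# P054 / T3, d = 3: rich graphs of isometries over a product set (from `R.r_stmt`)

* `graph_cubes`, `graph_squares`: `M ∑ |F|² ≤ C (|X||Y|)^(2+ε)` over distinct `M`-rich graphs `F`
  over `X × Y`;
* `rich_pairs`: the number of pairs of points of `X × Y` in a common `M`-rich graph;
* `not_noRich_pairs`: the number of pairs for which `NoRichS` fails;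
* `lineC_le_dist`: a line has at most two points on each sphere around `a`.
-/

namespace Vale.Agent.P054.T3.H549

open Finset Module
open Vale.Agent.P054.T2.H686 (E)
open Vale.Agent.P054.T3.H109.Gen (onL lineC)

/-- coordinates -/
def cv (x : E 2) : R.V3 := fun i => x i

theorem cv_inj : Function.Injective cv := by
  intro x y h
  ext i
  exact congrFun h i

theorem cv_sub (x y : E 2) : cv (x - y) = cv x - cv y := by
  funext i
  simp [cv]

theorem cv_add (x y : E 2) : cv (x + y) = cv x + cv y := by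
  funext i
  simp [cv]

theorem cv_smul (a : ℝ) (x : E 2) : cv (a • x) = a • cv x := by
  funext i
  simp [cv]

/-- the matrix of a linear isometry -/
noncomputable def mat (Φ : E 2 ≃ₗᵢ[ℝ] E 2) : Matrix (Fin 3) (Fin 3) ℝ :=
  fun i j => Φ (EuclideanSpace.single j 1) i

theorem mat_mulVec (Φ : E 2 ≃ₗᵢ[ℝ] E 2) (x : E 2) : (mat Φ).mulVec (cv x) = cv (Φ x) := by
  funext i
  have h1 : x = ∑ j, (x j) • (EuclideanSpace.single j (1 : ℝ) : E 2) := by
    ext k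
    simp only [WithLp.ofLp_sum, Finset.sum_apply, PiLp.smul_apply, EuclideanSpace.single_apply,
      smul_eq_mul, mul_ite, mul_one, mul_zero]
    simp
  have h2 : Φ x = ∑ j, (x j) • Φ (EuclideanSpace.single j (1 : ℝ)) := by
    conv_lhs => rw [h1]
    rw [map_sum]
    simp only [map_smul]
  simp only [Matrix.mulVec, dotProduct, mat, cv]
  rw [h2]
  simp [mul_comm]

theorem mat_orth (Φ : E 2 ≃ₗᵢ[ℝ] E 2) : (mat Φ).transpose * mat Φ = 1 := by
  ext j k
  rw [Matrix.mul_apply]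
  have h1 : ∑ i, (mat Φ).transpose j i * mat Φ i k =
      inner ℝ (Φ (EuclideanSpace.single j (1 : ℝ))) (Φ (EuclideanSpace.single k (1 : ℝ))) := by
    rw [PiLp.inner_apply]
    simp [mat, Matrix.transpose_apply, mul_comm]
  rw [h1, LinearIsometryEquiv.inner_map_map]
  rw [Matrix.one_apply]
  by_cases h : j = k
  · subst h
    simp
  · simp [h, EuclideanSpace.inner_single_left]


/-- a point on the line `(x, b)` -/
theorem onL_smul {x b a : R.V3} (hb : b ≠ 0) (h : R.OnL x b a) : ∃ c : ℝ, a - x = c • b := by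
  have h0 : ∃ i, b i ≠ 0 := by
    by_contra hc
    push Not at hc
    exact hb (funext hc)
  have h1 : ∀ i j, (a i - x i) * b j = (a j - x j) * b i := by
    have e := h
    unfold R.OnL at e
    rw [cross_apply] at e
    have e0 := congrFun e 0
    have e1 := congrFun e 1
    have e2 := congrFun e 2
    simp at e0 e1 e2
    intro i j
    fin_cases i <;> fin_cases j <;> simp <;> linarith
  obtain ⟨i, hi⟩ := h0
  refine ⟨(a i - x i) / b i, ?_⟩
  funext j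
  simp only [Pi.sub_apply, Pi.smul_apply, smul_eq_mul]
  field_simp
  linarith [h1 i j]

/-- few points on a line -/
theorem on_le {Y : Finset (E 2)} {L : ℕ} (hL1 : 1 ≤ L)
    (hL : ∀ x ∈ Y, ∀ y ∈ Y, x ≠ y → lineC Y x y ≤ L) {S : Finset R.V3}
    (hS : ∀ a ∈ S, ∃ y ∈ Y, cv y = a) (x b : R.V3) (hb : b ≠ 0) : R.on S x b ≤ L := by
  classical
  unfold R.on
  by_contra hc
  push Not at hc
  obtain ⟨a1, ha1, a2, ha2, hne⟩ := Finset.one_lt_card.1 (lt_of_le_of_lt hL1 hc)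
  rw [mem_filter] at ha1 ha2
  obtain ⟨y1, hy1, e1⟩ := hS a1 ha1.1
  obtain ⟨y2, hy2, e2⟩ := hS a2 ha2.1
  have hne' : y1 ≠ y2 := by
    rintro rfl
    exact hne (e1.symm.trans e2)
  refine absurd (hL y1 hy1 y2 hy2 hne') (not_le.2 (lt_of_lt_of_le hc ?_))
  unfold lineC
  rw [← Finset.card_image_of_injective (Y.filter fun z => onL y1 y2 z) cv_inj]
  refine Finset.card_le_card ?_
  intro a ha
  rw [mem_filter] at ha
  obtain ⟨y, hy, e⟩ := hS a ha.1
  refine mem_image.2 ⟨y, mem_filter.2 ⟨hy, ?_⟩, e⟩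
  obtain ⟨c1, h1⟩ := onL_smul hb ha1.2
  obtain ⟨c2, h2⟩ := onL_smul hb ha2.2
  obtain ⟨c, h3⟩ := onL_smul hb ha.2
  have hc12 : c2 - c1 ≠ 0 := by
    intro h0
    apply hne
    have : c1 = c2 := by linarith
    rw [this, ← h2] at h1
    exact sub_left_injective h1
  refine ⟨(c - c1) / (c2 - c1), ?_⟩
  apply cv_inj
  rw [cv_add, cv_smul, cv_sub, e, e1, e2]
  have h4 : a - a1 = (c - c1) • b := by
    rw [sub_smul, ← h1, ← h3]; abel
  have h5 : a2 - a1 = (c2 - c1) • b := by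
    rw [sub_smul, ← h1, ← h2]; abel
  rw [h5, smul_smul, div_mul_cancel₀ _ hc12, ← h4]
  abel

theorem le_rho {S : Finset R.V3} {m : ℕ} (h : ∀ x b : R.V3, b ≠ 0 → m ≤ R.off S x b) :
    m ≤ R.rho S := by
  unfold R.rho
  refine le_csInf ⟨_, 0, fun _ => 1, ?_, rfl⟩ ?_
  · intro h0
    have := congrFun h0 0
    simp at this
  · rintro k ⟨x, b, hb, rfl⟩
    exact h x b hb

theorem off_add_on (S : Finset R.V3) (x b : R.V3) : R.off S x b + R.on S x b = S.card := by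
  classical
  unfold R.off R.on
  rw [add_comm]
  exact Finset.card_filter_add_card_filter_not _

/-- **rich graphs of isometries over a product set**: the sum of the cubes -/
theorem graph_cubes (ε : ℝ) (hε : 0 < ε) : ∃ K1 : ℕ, ∃ C : ℝ, 0 < C ∧
    ∀ (X Y : Finset (E 2)) (𝓕 : Finset (Finset (E 2 × E 2))) (L M : ℕ), 1 ≤ L →
      2 * L + K1 ≤ M → (∀ x ∈ Y, ∀ y ∈ Y, x ≠ y → lineC Y x y ≤ L) →
      (∀ F ∈ 𝓕, M ≤ F.card) →
      (∀ F ∈ 𝓕, ∃ (Φ : E 2 ≃ₗᵢ[ℝ] E 2) (c : E 2), ∀ x : E 2 × E 2,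
        x ∈ F ↔ x.1 ∈ X ∧ x.2 ∈ Y ∧ x.1 = Φ x.2 + c) →
      ∑ F ∈ 𝓕, (F.card : ℝ) ^ 3 ≤ C * ((X.card : ℝ) * Y.card) ^ (2 + ε) := by
  classical
  obtain ⟨K1, C, hC, hR⟩ := R.r_stmt ε hε
  refine ⟨2 * K1, 8 * C, by positivity, fun X Y 𝓕 L M hL1 hM hL hFM hF => ?_⟩
  choose! Φ c hΦ using hF
  set g : Finset (E 2 × E 2) → R.Iso := fun F => (mat (Φ F), cv (c F)) with hg
  set SX := X.image cv with hSX
  set SY := Y.image cv with hSY
  have hact : ∀ F y, R.act (g F) (cv y) = cv (Φ F y + c F) := by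
    intro F y
    rw [cv_add]
    simp only [R.act, hg]
    rw [mat_mulVec]
  -- the matched points
  have hcard : ∀ F ∈ 𝓕, (R.M (g F) SY SX).card = F.card := by
    intro F hF
    have h1 : R.M (g F) SY SX = F.image fun x => cv x.2 := by
      ext a
      constructor
      · intro ha
        unfold R.M at ha
        obtain ⟨h1, h2⟩ := Finset.mem_filter.1 ha
        obtain ⟨y, hy, rfl⟩ := Finset.mem_image.1 h1
        obtain ⟨x, hx, h3⟩ := Finset.mem_image.1 h2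
        rw [hact] at h3
        exact Finset.mem_image.2 ⟨(x, y), (hΦ F hF (x, y)).2 ⟨hx, hy, cv_inj h3⟩, rfl⟩
      · intro ha
        obtain ⟨x, hx, rfl⟩ := Finset.mem_image.1 ha
        obtain ⟨h1, h2, h3⟩ := (hΦ F hF x).1 hx
        unfold R.M
        refine Finset.mem_filter.2 ⟨Finset.mem_image.2 ⟨x.2, h2, rfl⟩, ?_⟩
        rw [hact, ← h3]
        exact Finset.mem_image.2 ⟨x.1, h1, rfl⟩
    rw [h1]
    refine Finset.card_image_of_injOn ?_
    intro x hx y hy hxy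
    have h2 : x.2 = y.2 := cv_inj hxy
    have h3 := ((hΦ F hF x).1 hx).2.2
    have h4 := ((hΦ F hF y).1 hy).2.2
    exact Prod.ext (by rw [h3, h4, h2]) h2
  have hrho : ∀ F ∈ 𝓕, F.card - L ≤ R.rho (R.M (g F) SY SX) := by
    intro F hF
    refine le_rho fun x b hb => ?_
    have h1 := off_add_on (R.M (g F) SY SX) x b
    have h2 := on_le hL1 hL (S := R.M (g F) SY SX) (fun a ha => by
      unfold R.M at ha
      rw [mem_filter] at ha
      obtain ⟨y, hy, e⟩ := mem_image.1 ha.1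
      exact ⟨y, hy, e⟩) x b hb
    rw [hcard F hF] at h1
    omega
  have hinj : Set.InjOn g (𝓕 : Set (Finset (E 2 × E 2))) := by
    intro F hF F' hF' h
    ext x
    rw [hΦ F hF, hΦ F' hF']
    have h1 : ∀ y, Φ F y + c F = Φ F' y + c F' := by
      intro y
      apply cv_inj
      rw [← hact, ← hact, h]
    rw [h1]
  have h1 := hR SY SX (𝓕.image g) (by
    intro a ha
    obtain ⟨F, hF, rfl⟩ := mem_image.1 ha
    exact mat_orth _)
  have hcX : SX.card = X.card := Finset.card_image_of_injective _ cv_inj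
  have hcY : SY.card = Y.card := Finset.card_image_of_injective _ cv_inj
  rw [hcX, hcY] at h1
  unfold R.Rf at h1
  rw [Finset.sum_image hinj] at h1
  have h2 : ∑ F ∈ 𝓕, (F.card : ℝ) ^ 3 ≤ ∑ F ∈ 𝓕, 8 * (if K1 ≤ R.rho (R.M (g F) SY SX) then
      ((R.rho (R.M (g F) SY SX) : ℕ) : ℝ) ^ 3 else 0) := by
    refine Finset.sum_le_sum fun F hF => ?_
    have h3 := hrho F hF
    have h4 := hFM F hF
    rw [if_pos (by omega)]
    have h5 : (F.card : ℝ) ≤ 2 * ((R.rho (R.M (g F) SY SX) : ℕ) : ℝ) := by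
      exact_mod_cast (by omega : F.card ≤ 2 * R.rho (R.M (g F) SY SX))
    calc (F.card : ℝ) ^ 3 ≤ (2 * ((R.rho (R.M (g F) SY SX) : ℕ) : ℝ)) ^ 3 :=
          pow_le_pow_left₀ (by positivity) h5 3
      _ = _ := by ring
  rw [← Finset.mul_sum] at h2
  calc _ ≤ _ := h2
    _ ≤ 8 * (C * ((Y.card : ℝ) * X.card) ^ (2 + ε)) := by linarith
    _ = _ := by rw [mul_comm (Y.card : ℝ)]; ring

/-- **rich graphs of isometries over a product set**: the sum of the squares -/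
theorem graph_squares (ε : ℝ) (hε : 0 < ε) : ∃ K1 : ℕ, ∃ C : ℝ, 0 < C ∧
    ∀ (X Y : Finset (E 2)) (𝓕 : Finset (Finset (E 2 × E 2))) (L M : ℕ), 1 ≤ L →
      2 * L + K1 ≤ M → (∀ x ∈ Y, ∀ y ∈ Y, x ≠ y → lineC Y x y ≤ L) →
      (∀ F ∈ 𝓕, M ≤ F.card) →
      (∀ F ∈ 𝓕, ∃ (Φ : E 2 ≃ₗᵢ[ℝ] E 2) (c : E 2), ∀ x : E 2 × E 2,
        x ∈ F ↔ x.1 ∈ X ∧ x.2 ∈ Y ∧ x.1 = Φ x.2 + c) →
      (M : ℝ) * ∑ F ∈ 𝓕, (F.card : ℝ) ^ 2 ≤ C * ((X.card : ℝ) * Y.card) ^ (2 + ε) := by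
  obtain ⟨K1, C, hC, h⟩ := graph_cubes ε hε
  refine ⟨K1, C, hC, fun X Y 𝓕 L M hL1 hM hL hFM hF => ?_⟩
  refine le_trans ?_ (h X Y 𝓕 L M hL1 hM hL hFM hF)
  rw [Finset.mul_sum]
  refine Finset.sum_le_sum fun F hF' => ?_
  have h1 : (M : ℝ) ≤ F.card := by exact_mod_cast hFM F hF'
  calc (M : ℝ) * (F.card : ℝ) ^ 2 ≤ (F.card : ℝ) * (F.card : ℝ) ^ 2 :=
        mul_le_mul_of_nonneg_right h1 (by positivity)
    _ = _ := by ring


/-- **pairs in a common rich graph** -/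
theorem rich_pairs (ε : ℝ) (hε : 0 < ε) : ∃ K1 : ℕ, ∃ C : ℝ, 0 < C ∧
    ∀ (X Y : Finset (E 2)) (A : Finset ((E 2 × E 2) × (E 2 × E 2))) (L M : ℕ), 1 ≤ L →
      2 * L + K1 ≤ M → (∀ x ∈ Y, ∀ y ∈ Y, x ≠ y → lineC Y x y ≤ L) →
      (∀ e ∈ A, e.1 ∈ X ×ˢ Y ∧ e.2 ∈ X ×ˢ Y ∧ ∃ Φ : E 2 ≃ₗᵢ[ℝ] E 2,
        e.2.1 - e.1.1 = Φ (e.2.2 - e.1.2) ∧ ∃ cl : Finset (E 2 × E 2), cl ⊆ X ×ˢ Y ∧
          (∀ x ∈ cl, x.1 - e.1.1 = Φ (x.2 - e.1.2)) ∧ M ≤ cl.card) →
      (M : ℝ) * (A.card : ℝ) ≤ C * ((X.card : ℝ) * Y.card) ^ (2 + ε) := by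
  classical
  obtain ⟨K1, C, hC, h⟩ := graph_squares ε hε
  refine ⟨K1, C, hC, fun X Y A L M hL1 hM hL hA => ?_⟩
  choose! hA1 hA2 Φ hΦ cl hcl hclΦ hclM using hA
  set FF : (E 2 × E 2) × (E 2 × E 2) → Finset (E 2 × E 2) := fun e =>
    (X ×ˢ Y).filter fun x => x.1 = Φ e x.2 + (e.1.1 - Φ e e.1.2) with hFF
  have hiff : ∀ e (x : E 2 × E 2), x.1 - e.1.1 = Φ e (x.2 - e.1.2) ↔
      x.1 = Φ e x.2 + (e.1.1 - Φ e e.1.2) := by
    intro e x
    rw [map_sub]
    constructor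
    · intro h
      rw [sub_eq_iff_eq_add.1 h]
      abel
    · intro h
      rw [h]
      abel
  have hmem : ∀ e (x : E 2 × E 2), x ∈ FF e ↔ x ∈ X ×ˢ Y ∧ x.1 - e.1.1 = Φ e (x.2 - e.1.2) := by
    intro e x
    rw [hFF, Finset.mem_filter, hiff]
  have h1 := h X Y (A.image FF) L M hL1 hM hL (by
    intro F hF
    obtain ⟨e, he, rfl⟩ := Finset.mem_image.1 hF
    refine (hclM e he).trans (Finset.card_le_card fun x hx => ?_)
    exact (hmem e x).2 ⟨hcl e he hx, hclΦ e he x hx⟩) (by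
    intro F hF
    obtain ⟨e, he, rfl⟩ := Finset.mem_image.1 hF
    refine ⟨Φ e, e.1.1 - Φ e e.1.2, fun x => ?_⟩
    rw [hFF, Finset.mem_filter, Finset.mem_product, and_assoc])
  refine le_trans (mul_le_mul_of_nonneg_left ?_ (by positivity)) h1
  have h2 : A ⊆ (A.image FF).biUnion fun F => F ×ˢ F := by
    intro e he
    rw [Finset.mem_biUnion]
    refine ⟨FF e, Finset.mem_image_of_mem _ he, ?_⟩
    rw [Finset.mem_product]
    refine ⟨(hmem e _).2 ⟨hA1 e he, ?_⟩, (hmem e _).2 ⟨hA2 e he, hΦ e he⟩⟩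
    rw [sub_self, sub_self, map_zero]
  have h3 : A.card ≤ ∑ F ∈ A.image FF, F.card ^ 2 := by
    refine (Finset.card_le_card h2).trans (Finset.card_biUnion_le.trans (le_of_eq ?_))
    refine Finset.sum_congr rfl fun F _ => ?_
    rw [Finset.card_product, sq]
  exact_mod_cast h3

/-- **pairs at which `NoRichS` fails** -/
theorem not_noRich_pairs (ε : ℝ) (hε : 0 < ε) : ∃ K1 : ℕ, ∃ C : ℝ, 0 < C ∧
    ∀ (X Y : Finset (E 2)) (V : Finset (E 2 × E 2)) (A : Finset ((E 2 × E 2) × (E 2 × E 2)))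
      (δ : ℝ) (L M : ℕ), V ⊆ X ×ˢ Y → 1 ≤ L → 2 * L + K1 ≤ M →
      (∀ x ∈ Y, ∀ y ∈ Y, x ≠ y → lineC Y x y ≤ L) →
      (∀ e ∈ A, e.1 ∈ X ×ˢ Y ∧ e.2 ∈ X ×ˢ Y ∧ ¬ H533.NoRichS V M δ e.1 e.2) →
      (M : ℝ) * (A.card : ℝ) ≤ C * ((X.card : ℝ) * Y.card) ^ (2 + ε) := by
  obtain ⟨K1, C, hC, h⟩ := rich_pairs ε hε
  refine ⟨K1, C, hC, fun X Y V A δ L M hV hL1 hM hL hA => ?_⟩
  refine h X Y A L M hL1 hM hL fun e he => ?_
  obtain ⟨h1, h2, h3⟩ := hA e he
  refine ⟨h1, h2, ?_⟩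
  unfold H533.NoRichS at h3
  push Not at h3
  obtain ⟨Φ, _, h4, cl, h5, h6, h7⟩ := h3
  exact ⟨Φ, h4, cl, h5.trans hV, h6, h7.le⟩

/-- a line has at most two points on each sphere around `a` -/
theorem lineC_le_dist {n : ℕ} (Y : Finset (E n)) (a x y : E n) (hxy : x ≠ y) :
    lineC Y x y ≤ 2 * (Y.image (dist · a)).card := by
  classical
  rw [Vale.Agent.P054.T3.H109.Gen.lineC_eq]
  have h1 : ((Y.filter fun z => onL x y z).card) ≤
      ∑ ρ ∈ Y.image (dist · a), ((Y.filter fun z => onL x y z).filter fun z => dist z a = ρ).card := by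
    refine le_of_eq (Finset.card_eq_sum_card_fiberwise fun z hz => ?_)
    exact Finset.mem_coe.2 (Finset.mem_image_of_mem _ (Finset.mem_filter.1 hz).1)
  refine h1.trans ?_
  rw [mul_comm, ← smul_eq_mul]
  refine Finset.sum_le_card_nsmul _ _ _ fun ρ _ => ?_
  by_contra hc
  push Not at hc
  obtain ⟨z1, z2, z3, h1, h2, h3, h12, h13, h23⟩ := Finset.two_lt_card_iff.1 hc
  simp only [Finset.mem_filter] at h1 h2 h3
  obtain ⟨⟨-, c1, e1⟩, d1⟩ := h1
  obtain ⟨⟨-, c2, e2⟩, d2⟩ := h2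
  obtain ⟨⟨-, c3, e3⟩, d3⟩ := h3
  set v := y - x with hv
  have hv0 : v ≠ 0 := sub_ne_zero.2 hxy.symm
  have hvv : 0 < inner ℝ v v := real_inner_self_pos.2 hv0
  have key : ∀ c : ℝ, dist (x + c • v) a = ρ →
      c ^ 2 * inner ℝ v v + 2 * c * inner ℝ (x - a) v + (inner ℝ (x - a) (x - a) - ρ ^ 2) = 0 := by
    intro c hc
    have h4 : inner ℝ (x + c • v - a) (x + c • v - a) = ρ ^ 2 := by
      rw [real_inner_self_eq_norm_sq, ← dist_eq_norm, hc]
    have h5 : x + c • v - a = (x - a) + c • v := by abel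
    rw [h5, inner_add_add_self, inner_smul_left, inner_smul_right, inner_smul_left,
      inner_smul_right, real_inner_comm (x - a) v] at h4
    simp only [conj_trivial] at h4
    linarith
  have k1 := key c1 (by rw [← e1]; exact d1)
  have k2 := key c2 (by rw [← e2]; exact d2)
  have k3 := key c3 (by rw [← e3]; exact d3)
  have n12 : c1 ≠ c2 := fun h => h12 (by rw [e1, e2, h])
  have n13 : c1 ≠ c3 := fun h => h13 (by rw [e1, e3, h])
  have n23 : c2 ≠ c3 := fun h => h23 (by rw [e2, e3, h])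
  have m1 : (c1 - c2) * ((c1 + c2) * inner ℝ v v + 2 * inner ℝ (x - a) v) = 0 := by
    linear_combination k1 - k2
  have m2 : (c1 - c3) * ((c1 + c3) * inner ℝ v v + 2 * inner ℝ (x - a) v) = 0 := by
    linear_combination k1 - k3
  have m1' := (mul_eq_zero.1 m1).resolve_left (sub_ne_zero.2 n12)
  have m2' := (mul_eq_zero.1 m2).resolve_left (sub_ne_zero.2 n13)
  have m3 : (c2 - c3) * inner ℝ v v = 0 := by linear_combination m1' - m2'
  rcases mul_eq_zero.1 m3 with h | h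
  · exact n23 (sub_eq_zero.1 h)
  · exact absurd h hvv.ne'

end Vale.Agent.P054.T3.H549
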